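import Vale.Agent.P011Z.Cl.A0

/-!
Forms of the special linear groups: block A2, the semilinear action and its fixed points.
-/

open Matrix Module

noncomputable section

namespace Vale.Agent.P011Z.Cl.A2x

variable {n : ℕ} {k F : Type} [Field k] [Field F] [Algebra k F]
  (a : (F ≃ₐ[k] F) → Matrix (Fin n) (Fin n) F) (o : (F ≃ₐ[k] F) → Prop)

/-- The properties of the action. -/
structure Ac : Prop where
  par : ∀ σ τ, o (σ * τ) ↔ ¬ (o σ ↔ o τ)
  mul : ∀ σ τ x, thA a o σ (thA a o τ x) = thA a o (σ * τ) x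
  one : ∀ x, thA a o 1 x = x
  det : ∀ σ, (a σ).det ≠ 0

theorem ded (S : Finset (F ≃ₐ[k] F)) (d : (F ≃ₐ[k] F) → F)
    (h : ∀ c : F, ∑ σ ∈ S, σ c * d σ = 0) : ∀ σ ∈ S, d σ = 0 := by
  have h1 := (linearIndependent_monoidHom F F).comp (fun σ : F ≃ₐ[k] F => (σ : F →* F))
    fun σ τ e => AlgEquiv.ext fun x => DFunLike.congr_fun e x
  refine linearIndependent_iff'.1 h1 S d (funext fun c => ?_)
  rw [Finset.sum_apply]
  exact (Finset.sum_congr rfl fun σ _ => mul_comm _ _).trans (h c)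

variable {a o}

theorem th_of {σ : F ≃ₐ[k] F} (h : o σ) (x : Matrix (Fin n) (Fin n) F) :
    thA a o σ x = a σ * (x.map σ)ᵀ * (a σ)⁻¹ := if_pos h

theorem th_not {σ : F ≃ₐ[k] F} (h : ¬ o σ) (x : Matrix (Fin n) (Fin n) F) :
    thA a o σ x = a σ * x.map σ * (a σ)⁻¹ := if_neg h

theorem th_add (σ : F ≃ₐ[k] F) (x y : Matrix (Fin n) (Fin n) F) :
    thA a o σ (x + y) = thA a o σ x + thA a o σ y := by
  have h1 : (x + y).map σ = x.map σ + y.map σ := Matrix.map_add _ (map_add σ) x y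
  by_cases h : o σ
  · simp only [th_of h, h1, transpose_add, Matrix.mul_add, Matrix.add_mul]
  · simp only [th_not h, h1, Matrix.mul_add, Matrix.add_mul]

theorem th_smul (σ : F ≃ₐ[k] F) (c : F) (x : Matrix (Fin n) (Fin n) F) :
    thA a o σ (c • x) = σ c • thA a o σ x := by
  have h1 : (c • x).map σ = σ c • x.map σ := by
    ext i j
    simp
  by_cases h : o σ
  · simp only [th_of h, h1, transpose_smul, Matrix.mul_smul, Matrix.smul_mul]
  · simp only [th_not h, h1, Matrix.mul_smul, Matrix.smul_mul]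

theorem th_zero (σ : F ≃ₐ[k] F) : thA a o σ 0 = 0 := by
  simpa using th_smul (a := a) (o := o) σ 0 0

theorem th_sum {ι : Type} (σ : F ≃ₐ[k] F) (s : Finset ι) (x : ι → Matrix (Fin n) (Fin n) F) :
    thA a o σ (∑ i ∈ s, x i) = ∑ i ∈ s, thA a o σ (x i) :=
  map_sum (⟨⟨thA a o σ, th_zero σ⟩, th_add σ⟩ : Matrix (Fin n) (Fin n) F →+ _) x s

theorem map_mul' (σ : F ≃ₐ[k] F) (x y : Matrix (Fin n) (Fin n) F) :
    (x * y).map σ = x.map σ * y.map σ := Matrix.map_mul (f := (σ : F →+* F))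

theorem one_mem_of [Nonempty (Fin n)] (Q : Submodule F (Matrix (Fin n) (Fin n) F))
    {T : Set (Matrix (Fin n) (Fin n) F)} (hT : Submodule.span F T = ⊤)
    {x : Matrix (Fin n) (Fin n) F} (hx : x ≠ 0) (h : ∀ u ∈ T, ∀ v ∈ T, u * x * v ∈ Q) : 1 ∈ Q := by
  have hsp : ∀ y : Matrix (Fin n) (Fin n) F, y ∈ Submodule.span F T := fun y => hT ▸ trivial
  have h2 : ∀ u v : Matrix (Fin n) (Fin n) F, u * x * v ∈ Q := by
    intro u v
    induction hsp u using Submodule.span_induction with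
    | mem u hu =>
      induction hsp v using Submodule.span_induction with
      | mem v hv => exact h u hu v hv
      | zero => rw [Matrix.mul_zero]; exact zero_mem _
      | add y w _ _ h3 h4 => rw [Matrix.mul_add]; exact add_mem h3 h4
      | smul c y _ h3 => rw [Matrix.mul_smul]; exact Q.smul_mem c h3
    | zero => rw [Matrix.zero_mul, Matrix.zero_mul]; exact zero_mem _
    | add y w _ _ h3 h4 => rw [Matrix.add_mul, Matrix.add_mul]; exact add_mem h3 h4
    | smul c y _ h3 => rw [Matrix.smul_mul, Matrix.smul_mul]; exact Q.smul_mem c h3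
  let J : TwoSidedIdeal (Matrix (Fin n) (Fin n) F) := TwoSidedIdeal.mk'
    {y | ∀ u v : Matrix (Fin n) (Fin n) F, u * y * v ∈ Q}
    (fun u v => by rw [Matrix.mul_zero, Matrix.zero_mul]; exact zero_mem _)
    (fun hy hz u v => by rw [Matrix.mul_add, Matrix.add_mul]; exact add_mem (hy u v) (hz u v))
    (fun hy u v => by rw [Matrix.mul_neg, Matrix.neg_mul]; exact neg_mem (hy u v))
    (fun {y z} hz u v => by rw [← Matrix.mul_assoc]; exact hz _ v)
    fun {y z} hy u v => by rw [← Matrix.mul_assoc, Matrix.mul_assoc]; exact hy u _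
  have h3 : (1 : Matrix (Fin n) (Fin n) F) ∈ J :=
    IsSimpleRing.one_mem_of_ne_zero_mem J hx ((TwoSidedIdeal.mem_mk' ..).2 h2)
  have h4 := (TwoSidedIdeal.mem_mk' ..).1 h3 1 1
  rwa [Matrix.mul_one, Matrix.mul_one] at h4

theorem simple_of {R : Type} [Ring R] [Nontrivial R]
    (h : ∀ (I : TwoSidedIdeal R) (x : R), x ∈ I → x ≠ 0 → 1 ∈ I) : IsSimpleRing R := by
  refine IsSimpleRing.of_eq_bot_or_eq_top fun I => ?_
  by_cases hI : I = ⊥
  · exact Or.inl hI
  obtain ⟨x, hx, x0⟩ : ∃ x ∈ I, x ≠ 0 := by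
    by_contra h1
    push Not at h1
    exact hI (eq_bot_iff.2 fun x hx => (TwoSidedIdeal.mem_bot _).2 (h1 x hx))
  exact Or.inr ((TwoSidedIdeal.one_mem_iff I).1 (h I x hx x0))

namespace Ac

variable (h : Ac a o)
include h

theorem inv_mul (σ : F ≃ₐ[k] F) : (a σ)⁻¹ * a σ = 1 := nonsing_inv_mul _ (h.det σ).isUnit

theorem th_unit (σ : F ≃ₐ[k] F) : thA a o σ 1 = 1 := by
  have h1 : (1 : Matrix (Fin n) (Fin n) F).map σ = 1 := Matrix.map_one _ (map_zero σ) (map_one σ)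
  have h2 := mul_nonsing_inv _ (h.det σ).isUnit
  by_cases h : o σ
  · rw [th_of h, h1, transpose_one, Matrix.mul_one, h2]
  · rw [th_not h, h1, Matrix.mul_one, h2]

theorem th_mul {σ : F ≃ₐ[k] F} (hσ : ¬ o σ) (x y : Matrix (Fin n) (Fin n) F) :
    thA a o σ (x * y) = thA a o σ x * thA a o σ y := by
  rw [th_not hσ, th_not hσ, th_not hσ, map_mul']
  calc _ = a σ * x.map σ * ((a σ)⁻¹ * a σ) * y.map σ * (a σ)⁻¹ := by
        rw [h.inv_mul, Matrix.mul_one, Matrix.mul_assoc (a σ) (x.map σ)]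
    _ = _ := by simp only [Matrix.mul_assoc]

theorem th_anti {σ : F ≃ₐ[k] F} (hσ : o σ) (x y : Matrix (Fin n) (Fin n) F) :
    thA a o σ (x * y) = thA a o σ y * thA a o σ x := by
  rw [th_of hσ, th_of hσ, th_of hσ, map_mul', transpose_mul]
  calc _ = a σ * (y.map σ)ᵀ * ((a σ)⁻¹ * a σ) * (x.map σ)ᵀ * (a σ)⁻¹ := by
        rw [h.inv_mul, Matrix.mul_one, Matrix.mul_assoc (a σ) (y.map σ)ᵀ]
    _ = _ := by simp only [Matrix.mul_assoc]

theorem not_one : ¬ o 1 := fun h1 => (h.par 1 1).1 (by rwa [mul_one]) Iff.rfl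

theorem o_inv (σ : F ≃ₐ[k] F) : o σ⁻¹ ↔ o σ := by
  have h1 := h.par σ⁻¹ σ
  rw [inv_mul_cancel] at h1
  have h2 := h.not_one
  tauto

theorem conj {s τ : F ≃ₐ[k] F} (hτ : ¬ o τ) : ¬ o (s⁻¹ * τ * s) := by
  rw [h.par, h.par, h.o_inv]
  tauto

theorem quo {s σ : F ≃ₐ[k] F} (hs : o s) (hσ : o σ) : ¬ o (s⁻¹ * σ) := by
  rw [h.par, h.o_inv]
  tauto

/-- The subgroup of index two. -/
def G0 : Subgroup (F ≃ₐ[k] F) where
  carrier := {σ | ¬ o σ}
  one_mem' := h.not_one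
  mul_mem' := fun {σ τ} h1 h2 => by
    change ¬ o (σ * τ)
    change ¬ o σ at h1
    change ¬ o τ at h2
    rw [h.par]
    tauto
  inv_mem' := fun {σ} h1 => (h.o_inv σ).not.2 h1

/-- The centre. -/
abbrev KK : IntermediateField k F := IntermediateField.fixedField h.G0

theorem mem_KK {x : F} : x ∈ h.KK ↔ ∀ σ, ¬ o σ → σ x = x :=
  IntermediateField.mem_fixedField_iff _ _

/-- The algebra of the fixed points. -/
def AA : Subalgebra h.KK (Matrix (Fin n) (Fin n) F) where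
  carrier := {x | ∀ σ, ¬ o σ → thA a o σ x = x}
  mul_mem' := fun h1 h2 σ hσ => by rw [h.th_mul hσ, h1 σ hσ, h2 σ hσ]
  add_mem' := fun h1 h2 σ hσ => by rw [th_add, h1 σ hσ, h2 σ hσ]
  algebraMap_mem' := fun c σ hσ => by
    rw [Algebra.algebraMap_eq_smul_one]
    change thA a o σ ((c : F) • 1) = (c : F) • 1
    rw [th_smul, h.th_unit, h.mem_KK.1 c.2 σ hσ]

theorem mem_AA {x : Matrix (Fin n) (Fin n) F} : x ∈ h.AA ↔ ∀ σ, ¬ o σ → thA a o σ x = x := Iff.rfl

variable {S : Finset (F ≃ₐ[k] F)} (hS : ∀ σ, σ ∈ S ↔ ¬ o σ)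
include hS

theorem sum_shift {M : Type} [AddCommMonoid M] {τ : F ≃ₐ[k] F} (hτ : ¬ o τ)
    (g : (F ≃ₐ[k] F) → M) : ∑ σ ∈ S, g (τ * σ) = ∑ σ ∈ S, g σ :=
  Finset.sum_equiv (Equiv.mulLeft τ) (fun σ => by
    rw [hS, hS, Equiv.coe_mulLeft, h.par]
    tauto) fun _ _ => rfl

theorem tr_mem (c : F) : ∑ σ ∈ S, σ c ∈ h.KK := h.mem_KK.2 fun τ hτ => by
  rw [map_sum]
  exact h.sum_shift hS hτ fun σ => σ c

theorem av_mem (y : Matrix (Fin n) (Fin n) F) : ∑ σ ∈ S, thA a o σ y ∈ h.AA := fun τ hτ => by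
  rw [th_sum]
  simp only [h.mul]
  exact h.sum_shift hS hτ fun σ => thA a o σ y

theorem exists_b : ∃ b : F, ∑ σ ∈ S, σ b = 1 := by
  obtain ⟨c, hc⟩ : ∃ c : F, ∑ σ ∈ S, σ c ≠ 0 := by
    by_contra h1
    push Not at h1
    exact one_ne_zero (ded S (fun _ => 1) (fun c => by simpa using h1 c) 1 ((hS 1).2 h.not_one))
  refine ⟨c / ∑ σ ∈ S, σ c, ?_⟩
  rw [← div_self hc, Finset.sum_div]
  exact Finset.sum_congr rfl fun σ hσ => by
    rw [map_div₀, h.mem_KK.1 (h.tr_mem hS c) σ ((hS σ).1 hσ)]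

theorem av_smul (c : F) {x : Matrix (Fin n) (Fin n) F} (hx : x ∈ h.AA) :
    ∑ σ ∈ S, thA a o σ (c • x) = (∑ σ ∈ S, σ c) • x := by
  rw [Finset.sum_smul]
  exact Finset.sum_congr rfl fun σ hσ => by rw [th_smul, hx σ ((hS σ).1 hσ)]

theorem span_AA : Submodule.span F (h.AA : Set (Matrix (Fin n) (Fin n) F)) = ⊤ := by
  by_contra h1
  obtain ⟨l, l0, l1⟩ := Submodule.exists_le_ker_of_lt_top _ (lt_top_iff_ne_top.2 h1)
  refine l0 (LinearMap.ext fun y => ?_)
  have h2 := ded S (fun σ => l (thA a o σ y)) (fun c => by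
    have h3 : l _ = 0 := l1 (Submodule.subset_span (h.av_mem hS (c • y)))
    simpa only [map_sum, th_smul, map_smul, smul_eq_mul] using h3) 1 ((hS 1).2 h.not_one)
  rwa [h.one] at h2

theorem indep {ι : Type} {v : ι → h.AA} (hv : LinearIndependent h.KK v) :
    LinearIndependent F fun i => (v i : Matrix (Fin n) (Fin n) F) := by
  rw [linearIndependent_iff'] at hv ⊢
  intro s g hg i hi
  have h1 := ded S (fun σ => σ (g i)) (fun c => by
    have h2 : ∑ j ∈ s, (⟨_, h.tr_mem hS (c * g j)⟩ : h.KK) • v j = 0 := by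
      refine Subtype.ext ?_
      have h3 := congrArg (fun y => ∑ σ ∈ S, thA a o σ (c • y)) hg
      simp only [Finset.smul_sum, th_sum, smul_zero, th_zero, Finset.sum_const_zero,
        smul_smul] at h3
      rw [Finset.sum_comm] at h3
      rw [AddSubmonoidClass.coe_finsetSum]
      exact (Finset.sum_congr rfl fun j _ => (h.av_smul hS _ (v j).2).symm).trans h3
    have h4 := congrArg Subtype.val (hv s _ h2 i hi)
    simpa only [map_mul, ZeroMemClass.coe_zero] using h4) 1 ((hS 1).2 h.not_one)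
  exact h1

theorem rank_AA : finrank h.KK h.AA = n ^ 2 := by
  let B := Basis.ofVectorSpace h.KK h.AA
  have h1 : ⊤ ≤ Submodule.span F (Set.range fun i => (B i : Matrix (Fin n) (Fin n) F)) := by
    rw [← h.span_AA hS, Submodule.span_le]
    intro x hx
    have h2 : (⟨x, hx⟩ : h.AA) ∈ Submodule.span h.KK (Set.range B) := B.span_eq ▸ trivial
    change ((⟨x, hx⟩ : h.AA) : Matrix (Fin n) (Fin n) F) ∈ Submodule.span F _
    generalize (⟨x, hx⟩ : h.AA) = y at h2
    induction h2 using Submodule.span_induction with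
    | mem y hy =>
      obtain ⟨i, rfl⟩ := hy
      exact Submodule.subset_span ⟨i, rfl⟩
    | zero => exact zero_mem _
    | add y z _ _ h3 h4 => exact add_mem h3 h4
    | smul c y _ h3 => exact Submodule.smul_mem _ (c : F) h3
  have h2 := (Basis.mk (h.indep hS B.linearIndependent) h1).mk_eq_rank''
  rw [B.mk_eq_rank''] at h2
  rw [finrank, h2, ← finrank, finrank_matrix, Fintype.card_fin, finrank_self, mul_one, sq]

theorem central (hn : 0 < n) : Algebra.IsCentral h.KK h.AA := by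
  have : Nonempty (Fin n) := ⟨⟨0, hn⟩⟩
  refine ⟨fun z hz => ?_⟩
  have h1 : (z : Matrix (Fin n) (Fin n) F) ∈ Subalgebra.center F (Matrix (Fin n) (Fin n) F) := by
    refine Subalgebra.mem_center_iff.2 fun y => ?_
    have h2 : y ∈ Submodule.span F (h.AA : Set (Matrix (Fin n) (Fin n) F)) :=
      h.span_AA hS ▸ trivial
    induction h2 using Submodule.span_induction with
    | mem y hy => exact congrArg Subtype.val (Subalgebra.mem_center_iff.1 hz ⟨y, hy⟩)
    | zero => rw [Matrix.zero_mul, Matrix.mul_zero]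
    | add y w _ _ h3 h4 => rw [Matrix.add_mul, Matrix.mul_add, h3, h4]
    | smul c y _ h3 => rw [Matrix.smul_mul, Matrix.mul_smul, h3]
  obtain ⟨c, hc⟩ := (Algebra.IsCentral.mem_center_iff F).1 h1
  rw [Algebra.algebraMap_eq_smul_one] at hc
  have h2 : c ∈ h.KK := h.mem_KK.2 fun σ hσ => by
    have h3 := z.2 σ hσ
    rw [hc, th_smul, h.th_unit] at h3
    exact smul_left_injective F one_ne_zero h3
  refine Algebra.mem_bot.2 ⟨⟨c, h2⟩, Subtype.ext ?_⟩
  rw [Algebra.algebraMap_eq_smul_one, hc]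
  rfl

/-- The sum of the conjugates. -/
def av : Matrix (Fin n) (Fin n) F →+ h.AA :=
  AddMonoidHom.mk' (fun y => ⟨_, h.av_mem hS y⟩) fun y z => Subtype.ext (by
    change ∑ σ ∈ S, thA a o σ (y + z) = ∑ σ ∈ S, thA a o σ y + ∑ σ ∈ S, thA a o σ z
    simp only [th_add, Finset.sum_add_distrib])

theorem av_eq (c : F) (y : h.AA) :
    h.av hS (c • y.1) = algebraMap h.KK h.AA ⟨_, h.tr_mem hS c⟩ * y := by
  rw [← Algebra.smul_def]
  exact Subtype.ext (h.av_smul hS c y.2)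

/-- The subspace attached to an ideal. -/
def Q (I : TwoSidedIdeal h.AA) : Submodule F (Matrix (Fin n) (Fin n) F) where
  carrier := {y | ∀ c : F, h.av hS (c • y) ∈ I}
  zero_mem' := fun c => by
    rw [smul_zero, map_zero]
    exact I.zero_mem
  add_mem' := fun hy hz c => by
    rw [smul_add, map_add]
    exact I.add_mem (hy c) (hz c)
  smul_mem' := fun t y hy c => by
    rw [smul_smul]
    exact hy _

theorem mem_Q {I : TwoSidedIdeal h.AA} {y : h.AA} (hy : y ∈ I) : y.1 ∈ h.Q hS I := fun c => by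
  rw [h.av_eq]
  exact I.mul_mem_left _ _ hy

theorem one_mem_ideal (hn : 0 < n) {I : TwoSidedIdeal h.AA} {x : h.AA} (hx : x ∈ I)
    (x0 : x ≠ 0) : 1 ∈ I := by
  have : Nonempty (Fin n) := ⟨⟨0, hn⟩⟩
  have h3 : ∀ u ∈ h.AA, ∀ v ∈ h.AA, u * x.1 * v ∈ h.Q hS I := fun u hu v hv => by
    have e := h.mem_Q hS (I.mul_mem_right _ ⟨v, hv⟩ (I.mul_mem_left ⟨u, hu⟩ x hx))
    rwa [MulMemClass.coe_mul, MulMemClass.coe_mul] at e
  have h4 := one_mem_of (h.Q hS I) (h.span_AA hS) (fun e => x0 (Subtype.ext e)) h3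
  obtain ⟨b, hb⟩ := h.exists_b hS
  have h5 : h.av hS (b • 1) = 1 :=
    Subtype.ext ((h.av_smul hS b (one_mem _)).trans (by rw [hb, one_smul]; rfl))
  have h6 : h.av hS (b • 1) ∈ I := h4 b
  rwa [h5] at h6

theorem simple (hn : 0 < n) : IsSimpleRing h.AA := by
  have : Nonempty (Fin n) := ⟨⟨0, hn⟩⟩
  exact simple_of fun I x hx x0 => h.one_mem_ideal hS hn hx x0

end Ac

end Vale.Agent.P011Z.Cl.A2x

end
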